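import Vale.Agent.Lib.P205.Twist.Main

namespace Vale.Agent.Results.P205.InvariantTorus

open Real
open scoped ContDiff

/-- Let `E, F, G : R -> R` be smooth and `L`-periodic with `G > 0` and `F^2 < E G`, so that
`E(x) dx^2 + 2 F(x) dx dy + G(x) dy^2` is a smooth Riemannian metric on the torus
`R^2 / (L Z x 2 pi Z)` whose coefficients do not depend on `y` (a circle-invariant metric,
with arbitrary twist `F`). Then this metric admits a smooth isometric immersion into Euclidean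
4-space: there is a smooth map `Φ : R^2 -> R^4`, `L`-periodic in `x` and `2 pi`-periodic in
`y`, whose first fundamental form is `E(x) dx^2 + 2 F(x) dx dy + G(x) dy^2`. -/
theorem result (L : ℝ) (hL : 0 < L) (E F G : ℝ → ℝ)
    (hE : ContDiff ℝ ∞ E) (hF : ContDiff ℝ ∞ F) (hG : ContDiff ℝ ∞ G)
    (hGpos : ∀ x, 0 < G x) (hdet : ∀ x, F x ^ 2 < E x * G x)
    (hEper : ∀ x, E (x + L) = E x) (hFper : ∀ x, F (x + L) = F x)
    (hGper : ∀ x, G (x + L) = G x) :
    ∃ Φ : ℝ × ℝ → EuclideanSpace ℝ (Fin 4), ContDiff ℝ ∞ Φ ∧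
      (∀ x y, Φ (x + L, y) = Φ (x, y)) ∧ (∀ x y, Φ (x, y + 2 * π) = Φ (x, y)) ∧
      ∀ p v w : ℝ × ℝ, inner ℝ (fderiv ℝ Φ p v) (fderiv ℝ Φ p w) =
        E p.1 * v.1 * w.1 + F p.1 * (v.1 * w.2 + v.2 * w.1) + G p.1 * v.2 * w.2 :=
  Vale.Agent.Lib.P205.exists_invariant_torus hL hE hF hG hGpos hdet hEper hFper hGper

end Vale.Agent.Results.P205.InvariantTorus
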