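import Vale.Agent.Lib.P205.Warped

namespace Vale.Agent.Results.P205.WarpedTorus

open Real
open scoped ContDiff

/-- Let `E, G : R -> R` be smooth, positive and `L`-periodic. Then the warped-product metric
`E(x) dx^2 + G(x) dy^2` on the torus `R^2 / (L Z x 2 pi Z)` admits a smooth isometric
immersion into Euclidean 4-space: there is a smooth map `F : R^2 -> R^4`, `L`-periodic in `x`
and `2 pi`-periodic in `y`, whose first fundamental form is `E(x) dx^2 + G(x) dy^2`. -/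
theorem result (L : ℝ) (hL : 0 < L) (E G : ℝ → ℝ)
    (hE : ContDiff ℝ ∞ E) (hG : ContDiff ℝ ∞ G)
    (hEpos : ∀ x, 0 < E x) (hGpos : ∀ x, 0 < G x)
    (hEper : ∀ x, E (x + L) = E x) (hGper : ∀ x, G (x + L) = G x) :
    ∃ F : ℝ × ℝ → EuclideanSpace ℝ (Fin 4), ContDiff ℝ ∞ F ∧
      (∀ x y, F (x + L, y) = F (x, y)) ∧ (∀ x y, F (x, y + 2 * π) = F (x, y)) ∧
      ∀ p v w : ℝ × ℝ, inner ℝ (fderiv ℝ F p v) (fderiv ℝ F p w) =
        E p.1 * v.1 * w.1 + G p.1 * v.2 * w.2 :=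
  Vale.Agent.Lib.P205.exists_warped_torus hL hE hG hEpos hGpos hEper hGper

end Vale.Agent.Results.P205.WarpedTorus
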